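import Mathlib

namespace Vale.Agent.Results.P355.ButsonFourSix

open Complex

/-- The Hilbert space `ℂ^6`. -/
abbrev H6 : Type := EuclideanSpace ℂ (Fin 6)

/-- Two orthonormal bases of `ℂ^6` are mutually unbiased. -/
def Unbiased (B C : OrthonormalBasis (Fin 6) ℂ H6) : Prop :=
  ∀ i j, ‖inner ℂ (B i) (C j)‖ ^ 2 = 1 / 6

/-- A set of pairwise mutually unbiased orthonormal bases of `ℂ^6`. -/
def IsMUBFamily (F : Set (OrthonormalBasis (Fin 6) ℂ H6)) : Prop :=
  F.Pairwise Unbiased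

/-- The basis comes from a complex Hadamard matrix of Butson type: every vector is a unimodular
multiple of `6^(-1/2)` times a vector whose six coordinates are `N`-th roots of unity. -/
def Butson (N : ℕ) (B : OrthonormalBasis (Fin 6) ℂ H6) : Prop :=
  ∀ i, ∃ c : ℂ, ‖c‖ = 1 ∧ ∀ k, ∃ z : ℂ, z ^ N = 1 ∧ (B i) k = c * z / (Real.sqrt 6 : ℂ)

/-- sums of lattice elements stay in the lattice -/
lemma latt_sum (w : ℂ) (t : Fin 6 → ℂ) (h : ∀ k, ∃ a b : ℤ, t k = a + b * w) :
    ∃ A B : ℤ, ∑ k, t k = A + B * w := by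
  choose a b hab using h
  refine ⟨∑ k, a k, ∑ k, b k, ?_⟩
  push_cast
  rw [Finset.sum_mul, ← Finset.sum_add_distrib]
  exact Finset.sum_congr rfl (fun k _ => hab k)

lemma root4 (z : ℂ) (h : z ^ 4 = 1) : ∃ a b : ℤ, z = a + b * I := by
  have h1 : (z - 1) * (z + 1) * (z - I) * (z + I) = 0 := by
    have : (z - 1) * (z + 1) * (z - I) * (z + I) = (z ^ 2 - 1) * (z ^ 2 - I ^ 2) := by ring
    rw [this, I_sq]
    linear_combination h
  rcases mul_eq_zero.mp h1 with h2 | h2
  · rcases mul_eq_zero.mp h2 with h3 | h3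
    · rcases mul_eq_zero.mp h3 with h4 | h4
      · exact ⟨1, 0, by push_cast; linear_combination h4⟩
      · exact ⟨-1, 0, by push_cast; linear_combination h4⟩
    · exact ⟨0, 1, by push_cast; linear_combination h3⟩
  · exact ⟨0, -1, by push_cast; linear_combination h2⟩

/-- the primitive cube root of unity -/
noncomputable def om : ℂ := ⟨-1 / 2, Real.sqrt 3 / 2⟩

lemma om_sq : om ^ 2 + om + 1 = 0 := by
  have h3 : Real.sqrt 3 * Real.sqrt 3 = 3 := Real.mul_self_sqrt (by norm_num)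
  apply Complex.ext
  · simp [om, pow_two]
    nlinarith
  · simp [om, pow_two]
    ring

lemma root6 (z : ℂ) (h : z ^ 6 = 1) : ∃ a b : ℤ, z = a + b * om := by
  have ho := om_sq
  have h1 : (z - 1) * (z + 1) * ((z - om) * (z + 1 + om)) * ((z + om) * (z - 1 - om)) = 0 := by
    have e1 : (z - om) * (z + 1 + om) = z ^ 2 + z + 1 := by linear_combination (-1) * ho
    have e2 : (z + om) * (z - 1 - om) = z ^ 2 - z + 1 := by linear_combination (-1) * ho
    rw [e1, e2]
    linear_combination h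
  rcases mul_eq_zero.mp h1 with h2 | h2
  · rcases mul_eq_zero.mp h2 with h3 | h3
    · rcases mul_eq_zero.mp h3 with h4 | h4
      · exact ⟨1, 0, by push_cast; linear_combination h4⟩
      · exact ⟨-1, 0, by push_cast; linear_combination h4⟩
    · rcases mul_eq_zero.mp h3 with h4 | h4
      · exact ⟨0, 1, by push_cast; linear_combination h4⟩
      · exact ⟨-1, -1, by push_cast; linear_combination h4⟩
  · rcases mul_eq_zero.mp h2 with h4 | h4
    · exact ⟨0, -1, by push_cast; linear_combination h4⟩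
    · exact ⟨1, 1, by push_cast; linear_combination h4⟩

lemma no_norm4 (A B : ℤ) : Complex.normSq ((A : ℂ) + B * I) ≠ 6 := by
  intro h
  have h1 : ((A : ℝ)) ^ 2 + (B : ℝ) ^ 2 = 6 := by
    have : Complex.normSq ((A : ℂ) + B * I) = (A : ℝ) ^ 2 + (B : ℝ) ^ 2 := by
      simp [Complex.normSq_apply, pow_two]
    rw [this] at h
    exact h
  have h2 : A ^ 2 + B ^ 2 = 6 := by exact_mod_cast h1
  have hA : A ≤ 2 := by nlinarith
  have hA' : -2 ≤ A := by nlinarith
  have hB : B ≤ 2 := by nlinarith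
  have hB' : -2 ≤ B := by nlinarith
  interval_cases A <;> interval_cases B <;> omega

lemma no_norm6 (A B : ℤ) : Complex.normSq ((A : ℂ) + B * om) ≠ 6 := by
  intro h
  have h3 : Real.sqrt 3 * Real.sqrt 3 = 3 := Real.mul_self_sqrt (by norm_num)
  have h1 : ((A : ℝ)) ^ 2 - A * B + (B : ℝ) ^ 2 = 6 := by
    have : Complex.normSq ((A : ℂ) + B * om) = (A : ℝ) ^ 2 - A * B + (B : ℝ) ^ 2 := by
      simp [Complex.normSq_apply, om, pow_two]
      nlinarith
    rw [this] at h
    exact h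
  have h2 : A ^ 2 - A * B + B ^ 2 = 6 := by exact_mod_cast h1
  have hB : B ≤ 2 := by nlinarith [sq_nonneg (2 * A - B)]
  have hB' : -2 ≤ B := by nlinarith [sq_nonneg (2 * A - B)]
  have hA : A ≤ 2 := by nlinarith [sq_nonneg (2 * B - A)]
  have hA' : -2 ≤ A := by nlinarith [sq_nonneg (2 * B - A)]
  interval_cases A <;> interval_cases B <;> omega

/-- the arithmetic core: if sums of six `N`-th roots of unity never have squared modulus `6`,
two Butson bases of type `N` are never mutually unbiased -/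
lemma not_unbiased (N : ℕ)
    (hN : ∀ t : Fin 6 → ℂ, (∀ k, t k ^ N = 1) → Complex.normSq (∑ k, t k) ≠ 6)
    (B C : OrthonormalBasis (Fin 6) ℂ H6) (hB : Butson N B) (hC : Butson N C) :
    ¬ Unbiased B C := by
  intro hU
  have h00 := hU 0 0
  obtain ⟨c, hc, hz⟩ := hB 0
  obtain ⟨c', hc', hz'⟩ := hC 0
  choose z hz1 hz2 using hz
  choose z' hz1' hz2' using hz'
  have hs6 : (Real.sqrt 6 : ℂ) * (Real.sqrt 6 : ℂ) = 6 := by
    rw [← Complex.ofReal_mul, Real.mul_self_sqrt (by norm_num)]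
    norm_num
  have hs6ne : (Real.sqrt 6 : ℂ) ≠ 0 := by
    intro h0
    rw [h0] at hs6
    norm_num at hs6
  have hin : inner ℂ (B 0) (C 0)
      = (starRingEnd ℂ) c * c' / 6 * ∑ k, (starRingEnd ℂ) (z k) * z' k := by
    rw [PiLp.inner_apply, Finset.mul_sum]
    refine Finset.sum_congr rfl (fun k _ => ?_)
    have e1 : (B 0).ofLp k = c * z k / (Real.sqrt 6 : ℂ) := hz2 k
    have e2 : (C 0).ofLp k = c' * z' k / (Real.sqrt 6 : ℂ) := hz2' k
    rw [RCLike.inner_apply, e1, e2]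
    simp only [map_div₀, map_mul, Complex.conj_ofReal]
    field_simp
    rw [pow_two, hs6]
    try ring
  have hroot : ∀ k, ((starRingEnd ℂ) (z k) * z' k) ^ N = 1 := by
    intro k
    rw [mul_pow, ← map_pow, hz1 k, hz1' k]
    simp
  apply hN _ hroot
  have hn : ‖inner ℂ (B 0) (C 0)‖ ^ 2
      = Complex.normSq (∑ k, (starRingEnd ℂ) (z k) * z' k) / 36 := by
    rw [hin, ← Complex.normSq_eq_norm_sq, Complex.normSq_mul, Complex.normSq_div,
      Complex.normSq_mul, Complex.normSq_conj, Complex.normSq_eq_norm_sq c,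
      Complex.normSq_eq_norm_sq c', hc, hc']
    have : Complex.normSq 6 = 36 := by
      simp [Complex.normSq_apply]
      norm_num
    rw [this]
    ring
  rw [hn] at h00
  linarith

lemma sum4 (t : Fin 6 → ℂ) (h : ∀ k, t k ^ 4 = 1) : Complex.normSq (∑ k, t k) ≠ 6 := by
  obtain ⟨A, B, hAB⟩ := latt_sum I t (fun k => root4 _ (h k))
  rw [hAB]
  exact no_norm4 A B

lemma sum6 (t : Fin 6 → ℂ) (h : ∀ k, t k ^ 6 = 1) : Complex.normSq (∑ k, t k) ≠ 6 := by
  obtain ⟨A, B, hAB⟩ := latt_sum om t (fun k => root6 _ (h k))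
  rw [hAB]
  exact no_norm6 A B

theorem result :
    (∀ B C : OrthonormalBasis (Fin 6) ℂ H6, Butson 4 B → Butson 4 C → ¬ Unbiased B C) ∧
    (∀ B C : OrthonormalBasis (Fin 6) ℂ H6, Butson 6 B → Butson 6 C → ¬ Unbiased B C) ∧
    (∀ F : Set (OrthonormalBasis (Fin 6) ℂ H6), IsMUBFamily F →
      (∀ B ∈ F, B = EuclideanSpace.basisFun (Fin 6) ℂ ∨ Butson 4 B ∨ Butson 6 B) →
      F.encard ≤ 3) := by
  have r4 := not_unbiased 4 sum4
  have r6 := not_unbiased 6 sum6
  refine ⟨r4, r6, ?_⟩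
  intro F hF hcl
  have hsub : F ⊆ ({EuclideanSpace.basisFun (Fin 6) ℂ} ∪ {B | B ∈ F ∧ Butson 4 B})
      ∪ {B | B ∈ F ∧ Butson 6 B} := by
    intro B hB
    rcases hcl B hB with h | h | h
    · exact Or.inl (Or.inl h)
    · exact Or.inl (Or.inr ⟨hB, h⟩)
    · exact Or.inr ⟨hB, h⟩
  have h4 : ({B | B ∈ F ∧ Butson 4 B} : Set (OrthonormalBasis (Fin 6) ℂ H6)).encard ≤ 1 := by
    rw [Set.encard_le_one_iff]
    intro a b ha hb
    by_contra hne
    exact r4 a b ha.2 hb.2 (hF ha.1 hb.1 hne)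
  have h6 : ({B | B ∈ F ∧ Butson 6 B} : Set (OrthonormalBasis (Fin 6) ℂ H6)).encard ≤ 1 := by
    rw [Set.encard_le_one_iff]
    intro a b ha hb
    by_contra hne
    exact r6 a b ha.2 hb.2 (hF ha.1 hb.1 hne)
  calc F.encard ≤ _ := Set.encard_le_encard hsub
    _ ≤ (({EuclideanSpace.basisFun (Fin 6) ℂ} : Set (OrthonormalBasis (Fin 6) ℂ H6))
          ∪ {B | B ∈ F ∧ Butson 4 B}).encard + _ := Set.encard_union_le _ _
    _ ≤ (({EuclideanSpace.basisFun (Fin 6) ℂ} : Set (OrthonormalBasis (Fin 6) ℂ H6)).encard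
          + ({B | B ∈ F ∧ Butson 4 B} : Set (OrthonormalBasis (Fin 6) ℂ H6)).encard) + _ := by
        gcongr
        exact Set.encard_union_le _ _
    _ ≤ (1 + 1) + 1 := by
        gcongr
        exact (Set.encard_singleton _).le
    _ = 3 := by norm_num

end Vale.Agent.Results.P355.ButsonFourSix
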